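import Vale.Agent.P362.Upper

namespace Vale.Agent.Results.P362.AlphaFour

open Vale.Agent.P362

theorem result :
    sInf Exponents = 4 ∧ IsLeast Exponents 4 ∧
    ∀ n : ℕ, 1 ≤ n → ∀ f : (Fin n → Bool) → Bool, RComputes f (R f) ∧ QComputes f (Q f) :=
  ⟨isLeast_four.csInf_eq, isLeast_four, fun _ hn f => ⟨rcomputes_R f, qcomputes_Q hn f⟩⟩

end Vale.Agent.Results.P362.AlphaFour
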