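import Vale.Agent.P362.Main

namespace Vale.Agent.Results.P362.FourthPowerGap

open Vale.Agent.P362

theorem result :
    (∀ n : ℕ, 1 ≤ n → ∀ f : (Fin n → Bool) → Bool, RComputes f (R f) ∧ QComputes f (Q f)) ∧
    ∀ α : ℝ, 0 ≤ α →
      (∃ C : ℝ, ∀ n : ℕ, 1 ≤ n → ∀ f : (Fin n → Bool) → Bool,
        (R f : ℝ) ≤ C * (1 + (Q f : ℝ)) ^ α) → 4 ≤ α :=
  ⟨fun _ hn f => ⟨rcomputes_R f, qcomputes_Q hn f⟩, fun _ h0 h => four_le ⟨h0, h⟩⟩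

end Vale.Agent.Results.P362.FourthPowerGap
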